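import Vale.Agent.P014T.Lh.Lh
import Vale.Agent.P014T.Lk.Ell

/-! # P014 T: local-global compatibility for a curve with an entire `L`-function -/

set_option linter.all false

open UpperHalfPlane WeierstrassCurve Polynomial

noncomputable section

namespace Vale.Agent.P014T.Lh

open P004N P004N.T8 P004N.H169 P004N.H169.LF Lk P014

variable {E : WeierstrassCurve ℚ} {N S p : ℕ} {G : ℍ → ℂ} {a : ℕ → ℤ} {L : ℂ → ℂ}

theorem lge_good (h : RN N G a) (ht : At E a S) (hL : IsHasseWeil E L) (hp : p.Prime)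
    (r : E.LFunction p ^ 2 - E.LFunction (p ^ 2) = p) : ¬ p ∣ N ∧ a p = E.LFunction p := by
  obtain ⟨ε, nf⟩ := P004Z.Ar.nf_of_rn h
  have t := ht.mono (mul_ne_zero ht.1 hp.ne_zero) (dvd_mul_right S p)
  refine (good nf (cE_ldr E) t.1 t.inc hL.1 (IsEll.lh (hw hL)).2 hp (dvd_mul_left _ _) (cE_le E hp)
    (by unfold cE; exact_mod_cast r) fun e => hp.irrational_sqrt ⟨|E.LFunction p| / 2, ?_⟩).imp_right
      fun e => by unfold cE at e; exact_mod_cast e
  unfold cE at e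
  rw [eq_comm, Real.sqrt_eq_iff_mul_self_eq (by positivity) (by positivity)]
  push_cast
  linear_combination -(e + sq_abs (E.LFunction p : ℝ)) / 4

theorem lge_mult (h : RN N G a) (ht : At E a S) (hL : IsHasseWeil E L) (hp : p.Prime)
    (r : E.LFunction p ^ 2 - E.LFunction (p ^ 2) = 0) (d : E.LFunction p ≠ 0) :
    p ∣ N ∧ ¬ p ^ 2 ∣ N ∧ a p = E.LFunction p := by
  obtain ⟨ε, nf⟩ := P004Z.Ar.nf_of_rn h
  have t := ht.mono (mul_ne_zero ht.1 hp.ne_zero) (dvd_mul_right S p)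
  have r' : cE E p ^ 2 - cE E (p ^ 2) = 0 := by unfold cE; exact_mod_cast r
  have b : |E.LFunction p| ≤ 1 := by
    rcases (rel (cE_ldr E) hp).1 with ⟨e, -⟩ | ⟨-, e⟩
    · exact (hp.ne_zero (by exact_mod_cast e.symm.trans r')).elim
    · unfold cE at e; exact_mod_cast e
  refine (mult nf (cE_ldr E) t.1 t.inc hL.1 (IsEll.lh (hw hL)).2 hp (dvd_mul_left _ _) r'
    ?_).imp_right (And.imp_right fun e => by unfold cE at e; exact_mod_cast e)
  have : E.LFunction p ^ 2 = 1 := by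
    rw [← sq_abs, show |E.LFunction p| = 1 by have := abs_pos.2 d; omega, one_pow]
  unfold cE
  exact_mod_cast this

/-- the Euler factor at `p` is trivial -/
def Ad (E : WeierstrassCurve ℚ) (p : ℕ) : Prop := E.LFunction p = 0 ∧ E.LFunction (p ^ 2) = 0

/-- **the Euler factors agree at every prime that is not additive** -/
theorem lge (h : RN N G a) (ht : At E a S) (hL : IsHasseWeil E L) (hp : p.Prime) (d : ¬ Ad E p) :
    ¬ p ^ 2 ∣ N ∧ (p ∣ N ↔ E.LFunction p ^ 2 = E.LFunction (p ^ 2)) ∧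
      ∀ k : ℕ, E.LFunction (p ^ k) = a (p ^ k) := by
  obtain ⟨ε, nf⟩ := P004Z.Ar.nf_of_rn h
  have key : E.LFunction p = a p → cE E p ^ 2 - cE E (p ^ 2) = (a p : ℝ) ^ 2 - a (p ^ 2) →
      ∀ k : ℕ, E.LFunction (p ^ k) = a (p ^ k) := fun e1 e2 k => by
    induction k using Nat.twoStepInduction with
    | zero => rw [pow_zero, h.one, (Lf.lf_mul E).map_one]
    | one => rwa [pow_one]
    | more k i1 i2 =>
      have k1 := (rel (cE_ldr E) hp).2 (p ^ (k + 1))
      have k2 := (rel nf.ldr hp).2 (p ^ (k + 1))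
      rw [if_pos (dvd_pow_self p k.succ_ne_zero), ← pow_succ', pow_succ p k,
        Nat.mul_div_cancel _ hp.pos, ← pow_succ] at k1 k2
      rw [e2] at k1
      unfold cE at k1
      rw [e1, i1, i2, ← k2] at k1
      exact_mod_cast k1
  rcases (rel (cE_ldr E) hp).1 with ⟨e, -⟩ | ⟨e, -⟩
  · have r : E.LFunction p ^ 2 - E.LFunction (p ^ 2) = p := by unfold cE at e; exact_mod_cast e
    obtain ⟨k1, k2⟩ := lge_good h ht hL hp r
    exact ⟨fun c => k1 ((dvd_pow_self p two_ne_zero).trans c), iff_of_false k1 fun c =>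
      hp.ne_zero (by omega), key k2.symm (e.trans (good0 nf hp k1).symm)⟩
  · have r : E.LFunction p ^ 2 - E.LFunction (p ^ 2) = 0 := by unfold cE at e; exact_mod_cast e
    obtain ⟨k1, k2, k3⟩ := lge_mult h ht hL hp r fun c => d ⟨c, by simpa [c] using r⟩
    exact ⟨k2, iff_of_true k1 (sub_eq_zero.1 r), key k3.symm (e.trans (bad0 nf hp k1).symm)⟩

/-- the exceptional set consists of additive primes -/
theorem lge_at (h : RN N G a) (ht : At E a S) (hL : IsHasseWeil E L) {S' : ℕ} (S0 : S' ≠ 0)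
    (d : ∀ p : ℕ, p.Prime → Ad E p → p ∣ S') : At E a S' :=
  have C := H461.pfCf N G a h
  Lk.mult S0 C.zero C.one C.mul fun p hp k => (lge h ht hL hp fun c => k (d p hp c)).2.2

variable {W : WeierstrassCurve ℤ}

/-- **good reduction** -/
theorem lg_good (h : RN N G a) (ht : At (W.map (Int.castRingHom ℚ)) a S)
    (hL : IsHasseWeil (W.map (Int.castRingHom ℚ)) L) (hp : p.Prime) (g : ¬ (p : ℤ) ∣ W.Δ) :
    ¬ p ∣ N ∧ a p = (W.map (Int.castRingHom ℚ)).LFunction p := by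
  have := (LFunction_good W hp g).2 0
  rw [zero_add, zero_add, pow_one, pow_zero, (Lf.lf_mul _).map_one] at this
  exact lge_good h ht hL hp (by rw [this]; ring)

theorem lf_mult (hp : p.Prime) (h0 : W.Δ ≠ 0) (g : (p : ℤ) ∣ W.Δ) (c : ¬ (p : ℤ) ∣ W.c₄) :
    (W.map (Int.castRingHom ℚ)).LFunction p ^ 2 = 1 ∧ (W.map (Int.castRingHom ℚ)).LFunction (p ^ 2) = 1 := by
  have hl := Lf.M2.pfLoc p hp
  have := hl.charZero
  have e : Lf.lp (W.map (Int.castRingHom ℚ)) p hp = _ := Lf.locMult _ 1 (W.map (Int.castRingHom _))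
    (by rw [one_smul, baseChange, WeierstrassCurve.map_map, WeierstrassCurve.map_map]
        exact congrArg _ (RingHom.ext_int _ _))
    (by rw [map_c₄]; exact Lf.int_unit hl c) (by rw [map_Δ]; simpa using h0)
    (by rw [map_Δ, Lf.mem_max hl]; simpa using _root_.map_dvd (Int.castRingHom _) g)
  obtain ⟨η, k, e⟩ : ∃ η : ℤ, η ^ 2 = 1 ∧
      Lf.lp (W.map (Int.castRingHom ℚ)) p hp = 1 + C η * X + C 0 * X ^ 2 := by
    split_ifs at e
    exacts [⟨-1, rfl, by simp [e, sub_eq_add_neg]⟩, ⟨1, rfl, by simp [e]⟩]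
  obtain ⟨-, h1, h2⟩ := Lf.M2.inv_quad _ _ _ e
  have h3 := Lf.lf_pow (W.map (Int.castRingHom ℚ)) p hp 1
  rw [pow_one] at h3
  rw [Lf.lf_pow _ p hp, h2 0, h3, h1]
  exact ⟨by linear_combination k, by linear_combination k⟩

/-- **multiplicative reduction** -/
theorem lg_mult (h : RN N G a) (ht : At (W.map (Int.castRingHom ℚ)) a S)
    (hL : IsHasseWeil (W.map (Int.castRingHom ℚ)) L) (hp : p.Prime) (h0 : W.Δ ≠ 0)
    (g : (p : ℤ) ∣ W.Δ) (c : ¬ (p : ℤ) ∣ W.c₄) :
    p ∣ N ∧ ¬ p ^ 2 ∣ N ∧ a p = (W.map (Int.castRingHom ℚ)).LFunction p := by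
  obtain ⟨k1, k2⟩ := lf_mult hp h0 g c
  exact lge_mult h ht hL hp (by rw [k1, k2]; rfl) fun e => by simp [e] at k1

end Vale.Agent.P014T.Lh
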