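import Vale.Agent.P014T.Lh.Lh

/-! # P014 T: the Dirichlet series of a cusp form is entire -/

set_option linter.all false

open Complex Filter Topology Set Asymptotics MeasureTheory
open UpperHalfPlane hiding I
open scoped Real MatrixGroups ModularForm

noncomputable section

namespace Vale.Agent.P014T.Lh

open P004N P004Z.W2

variable {M : ℕ} {f : ℍ → ℂ} {c : ℕ → ℂ}

theorem bot (hM : 0 < M) (h : S2 M f) (b : ℝ) :
    (fun t : ℝ => f (ofComplex (I * t))) =O[𝓝[>] 0] fun t => t ^ (-b) := by
  have p : (0 : ℝ) < 2 * π / M := by positivity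
  have a := (((dec hM h ModularGroup.S).trans (isLittleO_exp_neg_mul_rpow_atTop p (b - 2)).isBigO).mul
    (isBigO_refl (fun t : ℝ => (I * t) ^ 2) atTop).norm_right).comp_tendsto tendsto_inv_nhdsGT_zero
  refine a.congr' (eventually_mem_nhdsWithin.mono fun t (k : 0 < t) => ?_)
    (eventually_mem_nhdsWithin.mono fun t (k : 0 < t) => ?_)
  · have k' := inv_pos.2 k
    have n : (t : ℂ) ≠ 0 := by exact_mod_cast k.ne'
    have e : ModularGroup.S • ofComplex (I * (t⁻¹ : ℝ)) = ofComplex (I * t) := by
      ext1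
      rw [modular_S_smul, coe_ofI k]
      simp only [coe_ofI k']
      push_cast
      field_simp
      simp
    simp only [Function.comp, ModularForm.SL_slash_apply, e]
    rw [ModularGroup.denom_S, coe_ofI k']
    push_cast
    field_simp
  · simp only [Function.comp, norm_pow, norm_mul, norm_I, norm_real, one_mul, Real.norm_eq_abs, sq_abs]
    rw [← Real.rpow_two, ← Real.rpow_add (inv_pos.2 k), sub_add_cancel, Real.inv_rpow k.le,
      Real.rpow_neg k.le]

theorem La_ent (hM : 0 < M) (h : S2 M f) : Differentiable ℂ (La f) := fun s =>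
  mellin_differentiableAt_of_isBigO_rpow_exp (by positivity)
    ((cont_ofI h.holo.continuous).locallyIntegrableOn (μ := volume) measurableSet_Ioi)
    (dec_top hM h) (bot hM h (s.re - 1)) (by linarith)

/-- **Hecke's continuation** -/
theorem ent (hM : 0 < M) (h : S2 M f) (q : QE f c) (c0 : c 0 = 0) {σ : ℝ} (h0 : 0 ≤ σ)
    (hs : ∀ s : ℂ, σ < s.re → Summable fun n : ℕ => c n / (n : ℂ) ^ s) :
    ∃ L : ℂ → ℂ, Differentiable ℂ L ∧ ∀ s : ℂ, σ < s.re → L s = ∑' n : ℕ, c n / (n : ℂ) ^ s := by
  have p2 : ((2 * π : ℝ) : ℂ) ≠ 0 := by exact_mod_cast Real.two_pi_pos.ne'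
  refine ⟨fun s => La f s * (Gamma s)⁻¹ * (2 * π : ℝ) ^ s, ((La_ent hM h).mul
    differentiable_one_div_Gamma).mul (differentiable_id.const_cpow (.inl p2)), fun s k => ?_⟩
  have g := Gamma_ne_zero_of_re_pos (s := s) (by linarith)
  have e : La f s = Gamma s * ((2 * π : ℝ) ^ (-s) * ∑' n : ℕ, c n / (n : ℂ) ^ s) := by
    refine (hasSum_mellin (a := c) (p := fun n => 2 * π * n) (fun n => ?_) (by linarith)
      (fun t (j : 0 < t) => ?_) (((hs s k).norm.div_const ((2 * π) ^ s.re)).congr fun n => ?_)).unique ?_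
    · rcases Nat.eq_zero_or_pos n with rfl | e
      · exact .inl c0
      · exact .inr (by positivity)
    · refine (q (ofComplex (I * t))).congr_fun' fun n => ?_
      rw [coe_ofI j]
      push_cast
      congr 2
      linear_combination -(2 * π * n * t : ℂ) * I_sq
    · rcases Nat.eq_zero_or_pos n with rfl | e
      · simp [c0]
      rw [norm_div, norm_natCast_cpow_of_pos e, Real.mul_rpow (x := 2 * π) (by positivity) (by positivity)]
      ring
    · refine (((hs s k).hasSum.mul_left _).mul_left _).congr_fun' fun n => ?_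
      rw [ofReal_mul (2 * π), mul_cpow_ofReal_nonneg (by positivity) (by positivity), ofReal_natCast,
        cpow_neg]
      ring
  have := cpow_ne_zero_iff.2 (.inl p2 : _ ∨ s = 0)
  simp only [e, cpow_neg]
  field_simp

end Vale.Agent.P014T.Lh
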