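import Vale.Agent.P014T.Lh.Nv
import Vale.Agent.P014T.Lk.Eul
import Vale.Agent.P004Z.W2.Lf
import Vale.Agent.P004N.H65.Att
import Vale.Agent.P004N.H65.Bound
import Vale.Agent.P004N.H449.Bd

/-! # P014 T: Euler factors of an entire Dirichlet series attached to a newform -/

set_option linter.all false

open Complex Filter Topology Set Asymptotics MeasureTheory
open UpperHalfPlane hiding I
open scoped Real

noncomputable section

namespace Vale.Agent.P014T.Lh

open P004N P004N.T8 P004N.H461 Lk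

variable {N S p : ℕ} {G : ℍ → ℂ} {a A : ℕ → ℝ} {ε : ℝ} {s : ℂ} {L : ℂ → ℂ}

theorem co {w : ℂ} (h : 0 < w.im) : (ofComplex w : ℂ) = w := by rw [ofComplex_apply_of_im_pos h]

theorem qs (h : NF N G a ε) {w : ℂ} (k : 0 < w.im) :
    HasSum (fun n : ℕ => (a n : ℂ) * exp (2 * π * I * n * w)) (G (ofComplex w)) := by
  simpa only [co k] using h.qe (ofComplex w)

theorem sm (h : LDr a) {t : ℝ} (ht : 2 < t) : Summable fun n : ℕ => |a n| / (2 * π * n) ^ t := by
  refine ((H503.Sum.sm_of_ldr h t (by simpa using ht)).norm.div_const ((2 * π) ^ t)).congr fun n => ?_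
  rw [norm_div, norm_real, ← ofReal_natCast, ← ofReal_cpow (by positivity), norm_real,
    Real.mul_rpow (x := 2 * π) (by positivity) (by positivity), Real.norm_eq_abs,
    Real.norm_of_nonneg (by positivity)]
  ring

theorem b1 (h : NF N G a ε) : ∃ C : ℝ, ∀ w : ℂ, 0 < w.im → ‖G (ofComplex w)‖ ≤ C / w.im ^ 1 := by
  obtain ⟨C, -, k⟩ := H449.vbound h.pos h.s2
  refine ⟨C, fun w j => ?_⟩
  have := k (ofComplex w)
  rwa [← coe_im, co j, ← le_div_iff₀ j, ← pow_one w.im] at this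

theorem bk (h : NF N G a ε) {k : ℕ} (hk : 2 < k) :
    ∃ C : ℝ, ∀ w : ℂ, 0 < w.im → ‖G (ofComplex w)‖ ≤ C / w.im ^ k := by
  have s := (sm h.ldr (t := k) (by exact_mod_cast hk)).mul_right (k.factorial : ℝ)
  refine ⟨_, fun w j => (qs h j).norm_le_of_bounded (s.hasSum.div_const _) fun n => ?_⟩
  rcases Nat.eq_zero_or_pos n with rfl | n0
  · simp [h.zero]
  have := Real.pow_div_factorial_le_exp (2 * π * n * w.im) (by positivity) k
  rw [norm_mul, norm_real, norm_exp, show (2 * π * I * n * w).re = -(2 * π * n * w.im) by simp,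
    Real.exp_neg, Real.norm_eq_abs, Real.rpow_natCast]
  refine (mul_le_mul_of_nonneg_left (inv_anti₀ (by positivity) this) (abs_nonneg _)).trans_eq ?_
  rw [mul_pow _ w.im]
  field_simp

theorem per (h : NF N G a ε) (w : ℂ) (m : ℤ) (k : 0 < w.im) :
    G (ofComplex (w + m)) = G (ofComplex w) :=
  (qs h (by simpa using k)).unique ((qs h k).congr_fun' fun n => by
    rw [mul_add, exp_add, show (2 * π * I * n * m : ℂ) = (n * m : ℤ) * (2 * π * I) by push_cast; ring,
      exp_int_mul_two_pi_mul_I, mul_one])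

theorem uu (hp : 0 < p) {w : ℂ} (k : 0 < w.im) :
    (∑ j : Fin p, sl G !![1, ((j : ℕ) : ℤ); 0, (p : ℤ)]) (ofComplex w) =
      ∑ j : Fin p, (p : ℂ)⁻¹ * G (ofComplex ((w + (j : ℕ)) / p)) := by
  rw [Finset.sum_apply]
  exact Finset.sum_congr rfl fun j _ => sl_U G p hp _ _ _ (by
    rw [co k, co (by simp; positivity), Int.cast_natCast])

theorem vv (hp : 0 < p) {w : ℂ} (k : 0 < w.im) :
    sl G !![(p : ℤ), 0; 0, 1] (ofComplex w) = p * G (ofComplex (p * w)) :=
  sl_V G p hp _ _ (by rw [co k, co (by simp; positivity)])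

theorem hU (h : NF N G a ε) (hp : p.Prime) (w : ℂ) (k : 0 < w.im) :
    ∑ j : Fin p, (p : ℂ)⁻¹ * G (ofComplex ((w + (j : ℕ)) / p)) =
      a p * G (ofComplex w) - (a p ^ 2 - a (p ^ 2) : ℝ) * G (ofComplex (p * w)) := by
  have p0 : (p : ℂ) ≠ 0 := by exact_mod_cast hp.ne_zero
  have := congrFun (QE.ext (qe_U h.qe p hp.pos) (fun z => ((QE.sub (QE.smul h.qe (a p))
    (QE.smul (qe_V h.qe p hp.pos) ((a p ^ 2 - a (p ^ 2) : ℝ) / p))) z).congr_fun' fun n => by
      rw [(rel h.ldr hp).2 n]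
      by_cases c : p ∣ n <;> simp only [c, if_true, if_false] <;> push_cast <;> field_simp <;> ring))
    (ofComplex w)
  rw [uu hp.pos k, Pi.sub_apply, Pi.smul_apply, Pi.smul_apply, vv hp.pos k] at this
  rw [this, smul_eq_mul, smul_eq_mul]
  field_simp

/-- the completed `L`-function -/
def La (G : ℍ → ℂ) : ℂ → ℂ := mellin fun y : ℝ => G (ofComplex (I * y))

/-- **infinitely many non-zero values on every progression to the right of `1`** -/
theorem nvR (h : NF N G a ε) (hp : p.Prime) (hs : 1 < s.re) :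
    {n : ℤ | La G (s - 2 * π * I * n / Real.log p) ≠ 0}.Infinite := fun hF => by
  have p0 : (p : ℂ) ≠ 0 := by exact_mod_cast hp.ne_zero
  obtain ⟨C, h1⟩ := b1 h
  obtain ⟨k, k0⟩ := exists_nat_gt (2 * s.re)
  obtain ⟨C', hk⟩ := bk h (k := k) (by exact_mod_cast (by linarith : (2 : ℝ) < k))
  have e := nv (g := fun w => G (ofComplex w)) hp.one_lt hs (mdifferentiable_iff.1 h.s2.holo) h1 hk
    (by linarith) (per h) (hU h hp) hF
  have q := QE.smul (qe_V (qe_U h.qe p hp.pos) p hp.pos) (p : ℂ)⁻¹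
  rw [show _ • _ = G from funext fun z => by
    have k : 0 < ((p : ℂ) * z).im := by simp; exact mul_pos (by exact_mod_cast hp.pos) z.im_pos
    rw [← ofComplex_apply z, Pi.smul_apply, vv hp.pos z.im_pos, uu hp.pos k, hU h hp _ k,
      ← e z z.im_pos, smul_eq_mul, inv_mul_cancel_left₀ p0]] at q
  simpa [h.one, hp.ne_one] using congrFun (QE.unique h.qe q) 1

theorem fr (h : NF N G a ε) {t : ℝ} (ht : 0 < t) : G (ofComplex (I * t)) =
    (-ε / N : ℂ) • (t : ℂ) ^ (-2 : ℂ) • G (ofComplex (I * (((N : ℝ) * t)⁻¹ : ℝ))) := by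
  have n0 : (0 : ℝ) < N := by exact_mod_cast h.pos
  have n1 : (N : ℂ) ≠ 0 := by exact_mod_cast h.pos.ne'
  have t0 : (t : ℂ) ≠ 0 := by exact_mod_cast ht.ne'
  have k : 0 < (I * (((N : ℝ) * t)⁻¹ : ℝ)).im := by rw [mul_comm, im_mul]; simp; positivity
  rw [h.al 0 (-1) 1 0 (by ring) (ofComplex (I * (((N : ℝ) * t)⁻¹ : ℝ))) _ (by
    rw [co k, co (by simpa using ht)]; push_cast; field_simp; simp [mul_right_comm I]), co k, cpow_neg, cpow_two]
  simp only [smul_eq_mul]
  push_cast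
  field_simp
  simp

/-- the functional equation -/
theorem fe (h : NF N G a ε) (s : ℂ) : La G s = -ε / N * (N ^ (2 - s) * La G (2 - s)) := by
  have n0 : (0 : ℝ) < N := by exact_mod_cast h.pos
  rw [La, mellin, setIntegral_congr_fun measurableSet_Ioi fun t k => by rw [fr h k], ← mellin,
    mellin_const_smul, mellin_cpow_smul,
    mellin_comp_mul_left (fun t : ℝ => G (ofComplex (I * (t⁻¹ : ℝ)))) _ n0,
    mellin_comp_inv fun t : ℝ => G (ofComplex (I * t))]
  simp [sub_eq_add_neg]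

theorem La_diff (h : NF N G a ε) : Differentiable ℂ (La G) := by
  have n1 : (N : ℂ) ≠ 0 := by exact_mod_cast h.pos.ne'
  have d : ∀ s : ℂ, 0 < s.re → DifferentiableAt ℂ (La G) s := fun s k =>
    mellin_differentiableAt_of_isBigO_rpow_exp (by have := h.pos; positivity)
      ((P004Z.W2.cont_ofI h.s2.holo.continuous).locallyIntegrableOn (μ := volume) measurableSet_Ioi)
      (P004Z.W2.dec_top h.pos h.s2) (P004Z.W2.dec_bot h.pos h.s2) k
  intro s
  rcases lt_or_ge 0 s.re with k | k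
  · exact d s k
  rw [funext (fe h)]
  exact (((differentiableAt_id.const_sub _).const_cpow (.inl n1)).mul ((d _ (by
    simp; linarith)).comp s (differentiableAt_id.const_sub _))).const_mul _

theorem La_ser (h : NF N G a ε) (hs : 2 < s.re) :
    La G s = Gamma s * ((2 * π : ℝ) ^ (-s) * ∑' n : ℕ, (a n : ℂ) / (n : ℂ) ^ s) := by
  refine (hasSum_mellin (a := fun n : ℕ => (a n : ℂ)) (p := fun n => 2 * π * n)
    (fun n => ?_) (by linarith) (fun t (k : 0 < t) => ?_) (by simpa using sm h.ldr hs)).unique ?_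
  · rcases Nat.eq_zero_or_pos n with rfl | e
    · exact .inl (by simp [h.zero])
    · exact .inr (by positivity)
  · refine (qs h (by simpa using k)).congr_fun' fun n => ?_
    push_cast
    congr 2
    linear_combination -(2 * π * n * t : ℂ) * I_sq
  · refine (((H503.Sum.sm_of_ldr h.ldr s hs).hasSum.mul_left _).mul_left _).congr_fun' fun n => ?_
    rw [ofReal_mul (2 * π), mul_cpow_ofReal_nonneg (by positivity) (by positivity), ofReal_natCast,
      cpow_neg]
    ring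

/-- the entire identity -/
theorem idn (h : NF N G a ε) (hA : LDr A) (S0 : S ≠ 0) (e : inc S A = inc S a)
    (hL : Differentiable ℂ L) (hs : ∀ s : ℂ, 2 < s.re → L s = ∑' n : ℕ, (A n : ℂ) / (n : ℂ) ^ s)
    (s : ℂ) : La G s * (Gamma s)⁻¹ * Pe a S s = (2 * π : ℝ) ^ (-s) * L s * Pe A S s := by
  have p2 : ((2 * π : ℝ) : ℂ) ≠ 0 := by exact_mod_cast Real.two_pi_pos.ne'
  refine congrFun (AnalyticOnNhd.eq_of_eventuallyEq
    (f := fun s => La G s * (Gamma s)⁻¹ * Pe a S s) (g := fun s => (2 * π : ℝ) ^ (-s) * L s * Pe A S s)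
    (fun s _ => (((La_diff h).mul differentiable_one_div_Gamma).mul (Pe_diff a S)).analyticAt s)
    (fun s _ => (((differentiable_id.neg.const_cpow (.inl p2)).mul hL).mul (Pe_diff A S)).analyticAt s)
    (z₀ := 3) (((isOpen_lt continuous_const Complex.continuous_re).eventually_mem
      (show (3 : ℂ) ∈ {s : ℂ | 2 < s.re} by norm_num)).mono fun s (k : 2 < s.re) => ?_)) s
  have := Gamma_ne_zero_of_re_pos (s := s) (by linarith)
  have e1 := ser hA S0 k
  rw [e, ser h.ldr S0 k] at e1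
  simp only [La_ser h k, hs s k]
  field_simp
  linear_combination e1

theorem Pp_eq (A : ℕ → ℝ) (hp : p ≠ 0) (s : ℂ) : Pp A p s =
    1 - A p * (p : ℂ) ^ (-s) + ((A p ^ 2 - A (p ^ 2) : ℝ) : ℂ) * ((p : ℂ) ^ (-s)) ^ 2 := by
  rw [Pp, sq ((p : ℂ) ^ _), ← cpow_add _ _ (Nat.cast_ne_zero.2 hp)]
  ring_nf

theorem pw {q : ℕ} (hq : q ≠ 0) (s : ℂ) (n : ℤ) : (q : ℂ) ^ (-(s + 2 * π * I * n / Real.log p)) =
    q ^ (-s) * exp (-(n * Real.log q / Real.log p) * (2 * π * I)) := by
  have := Nat.cast_ne_zero (R := ℂ).2 hq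
  rw [neg_add, cpow_add _ _ this, cpow_def_of_ne_zero this (-(_ / _)), ← natCast_log]
  ring_nf

theorem fin_q {q : ℕ} (hp : p.Prime) (hq : q.Prime) (ne : q ≠ p) (a : ℕ → ℝ) (s : ℂ) :
    {n : ℤ | Pp a q (s + 2 * π * I * n / Real.log p) = 0}.Finite := by
  have l0 := Real.log_pos (x := p) (by exact_mod_cast hp.one_lt)
  have l1 : (Real.log p : ℂ) ≠ 0 := by exact_mod_cast l0.ne'
  have f := Polynomial.finite_setOf_isRoot (p := 1 - Polynomial.C (a q : ℂ) * Polynomial.X +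
    Polynomial.C ((a q ^ 2 - a (q ^ 2) : ℝ) : ℂ) * Polynomial.X ^ 2) fun e => by
      simpa using congrArg (Polynomial.eval 0) e
  refine (f.preimage (f := fun n : ℤ => (q : ℂ) ^ (-(s + 2 * π * I * n / Real.log p)))
    fun m _ n _ e => ?_).subset fun n k => by simpa [Pp_eq a hq.ne_zero] using k
  simp only [pw hq.ne_zero] at e
  obtain ⟨j, e⟩ := exp_eq_exp_iff_exists_int.1 (mul_left_cancel₀ (by simp [hq.ne_zero]) e)
  have e1 : ((n - m : ℤ) : ℝ) * Real.log q = j * Real.log p := by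
    rw [← add_mul, mul_left_inj' two_pi_I_ne_zero] at e
    field_simp at e
    have : (((n - m : ℤ) : ℝ) * Real.log q : ℂ) = (j : ℝ) * Real.log p := by
      push_cast at e ⊢; linear_combination e
    exact_mod_cast this
  have e2 := congrArg abs e1
  rw [abs_mul, abs_mul, abs_of_pos l0, abs_of_pos (Real.log_pos (by exact_mod_cast hq.one_lt)),
    ← Int.cast_abs, ← Int.cast_abs, ← Nat.cast_natAbs, ← Nat.cast_natAbs, ← Real.log_pow,
    ← Real.log_pow] at e2
  have e3 : q ^ (n - m).natAbs = p ^ j.natAbs := by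
    exact_mod_cast Real.log_injOn_pos (by simp [hq.pos]) (by simp [hp.pos]) e2
  by_contra c
  exact ne ((Nat.prime_dvd_prime_iff_eq hq hp).1 (hq.dvd_of_dvd_pow (e3 ▸ dvd_pow_self q (by omega))))

/-- **local-global compatibility for zeros of Euler factors** -/
theorem lh (h : NF N G a ε) (hA : LDr A) (S0 : S ≠ 0) (e : inc S A = inc S a)
    (hL : Differentiable ℂ L) (hs : ∀ s : ℂ, 2 < s.re → L s = ∑' n : ℕ, (A n : ℂ) / (n : ℂ) ^ s)
    (hp : p.Prime) (pS : p ∣ S) (s1 : s.re < 1) (z : Pp A p s = 0) : Pp a p s = 0 := by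
  by_contra c
  have l0 := Real.log_pos (x := p) (by exact_mod_cast hp.one_lt)
  have l1 : (Real.log p : ℂ) ≠ 0 := by exact_mod_cast l0.ne'
  have pe : ∀ (a : ℕ → ℝ) (n : ℤ), Pp a p (s + 2 * π * I * n / Real.log p) = Pp a p s := fun a n => by
    rw [Pp_eq a hp.ne_zero, Pp_eq a hp.ne_zero, pw hp.ne_zero, mul_div_cancel_right₀ _ l1,
      ← Int.cast_neg, exp_int_mul_two_pi_mul_I, mul_one]
  have f1 : {n : ℤ | s.im + 2 * π * n / Real.log p = 0}.Finite :=
    Set.Subsingleton.finite fun m (k : _ = _) n (j : _ = _) => by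
      have := k.trans j.symm
      field_simp at this
      exact_mod_cast mul_left_cancel₀ Real.two_pi_pos.ne' (add_left_cancel this)
  refine nvR h hp (s := 2 - s) (by simp; linarith) ((f1.union ((S.primeFactors.erase p).finite_toSet.biUnion
    fun q k => fin_q hp (Nat.prime_of_mem_primeFactors (Finset.mem_of_mem_erase k))
      (Finset.ne_of_mem_erase k) a s)).subset fun n k => ?_)
  have i := idn h hA S0 e hL hs (s + 2 * π * I * n / Real.log p)
  rw [show Pe A S _ = 0 from Finset.prod_eq_zero (Nat.mem_primeFactors.2 ⟨hp, pS, S0⟩)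
    ((pe A n).trans z), mul_zero, mul_eq_zero, mul_eq_zero] at i
  rcases i with (i | i) | i
  · exact (k (by rw [fe h, ← sub_add, sub_sub_cancel, i, mul_zero, mul_zero])).elim
  · obtain ⟨m, i⟩ := (Gamma_eq_zero_iff _).1 (inv_eq_zero.1 i)
    exact .inl (by simpa [-natCast_log] using congrArg Complex.im i)
  · obtain ⟨q, m, i⟩ := Finset.prod_eq_zero_iff.1 i
    exact .inr (mem_biUnion (Finset.mem_erase.2 ⟨by rintro rfl; exact c ((pe a n).symm.trans i), m⟩) i)

theorem root (h : NF N G a ε) (hA : LDr A) (S0 : S ≠ 0) (e : inc S A = inc S a)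
    (hL : Differentiable ℂ L) (hs : ∀ s : ℂ, 2 < s.re → L s = ∑' n : ℕ, (A n : ℂ) / (n : ℂ) ^ s)
    (hp : p.Prime) (pS : p ∣ S) (b : |A p| ≤ p) {T : ℂ}
    (z : 1 - A p * T + ((A p ^ 2 - A (p ^ 2) : ℝ) : ℂ) * T ^ 2 = 0) :
    1 - a p * T + ((a p ^ 2 - a (p ^ 2) : ℝ) : ℂ) * T ^ 2 = 0 := by
  have l1 : log p ≠ 0 := by
    exact_mod_cast (Real.log_pos (x := p) (by exact_mod_cast hp.one_lt)).ne'
  have t : (p : ℂ) ^ (-(-log T / log p)) = T := by
    rw [cpow_def_of_ne_zero (Nat.cast_ne_zero.2 hp.ne_zero), neg_div, neg_neg, mul_div_cancel₀ _ l1,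
      exp_log (by rintro rfl; simp at z)]
  rw [← t, ← Pp_eq _ hp.ne_zero] at z ⊢
  exact lh h hA S0 e hL hs hp pS (not_le.1 fun k => Pp_ne hA hp b k z) z

theorem bad0 (h : NF N G a ε) (hp : p.Prime) (k : p ∣ N) : a p ^ 2 - a (p ^ 2) = 0 := by
  rw [sq p, h.bad p hp k, sq, sub_self]

theorem good0 (h : NF N G a ε) (hp : p.Prime) (k : ¬ p ∣ N) : a p ^ 2 - a (p ^ 2) = p := by
  have := h.good p hp k p
  rw [if_pos dvd_rfl, Nat.div_self hp.pos, h.one] at this
  rw [sq p]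
  linarith

/-- **a good Euler factor** -/
theorem good (h : NF N G a ε) (hA : LDr A) (S0 : S ≠ 0) (e : inc S A = inc S a)
    (hL : Differentiable ℂ L) (hs : ∀ s : ℂ, 2 < s.re → L s = ∑' n : ℕ, (A n : ℂ) / (n : ℂ) ^ s)
    (hp : p.Prime) (pS : p ∣ S) (b : |A p| ≤ p) (r : A p ^ 2 - A (p ^ 2) = p) (d : A p ^ 2 ≠ 4 * p) :
    ¬ p ∣ N ∧ a p = A p := by
  have p0 : (p : ℂ) ≠ 0 := by exact_mod_cast hp.ne_zero
  obtain ⟨δ, hδ⟩ := IsAlgClosed.exists_pow_nat_eq ((A p : ℂ) ^ 2 - 4 * p) two_pos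
  have d0 : δ ≠ 0 := by
    rintro rfl
    exact d (by exact_mod_cast (by linear_combination -hδ : (A p : ℂ) ^ 2 = 4 * p))
  have k : ∀ η : ℂ, η ^ 2 = δ ^ 2 → (2 * p) ^ 2 - 2 * p * a p * (A p + η) +
      ((a p ^ 2 - a (p ^ 2) : ℝ) : ℂ) * (A p + η) ^ 2 = 0 := fun η j => by
    have := root h hA S0 e hL hs hp pS b (T := (A p + η) / (2 * p)) (by
      rw [r]; push_cast; field_simp; linear_combination j + hδ)
    field_simp at this
    linear_combination this
  have k1 := k δ rfl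
  have k2 := k (-δ) (neg_sq _)
  have k3 : (p : ℂ) * a p = ((a p ^ 2 - a (p ^ 2) : ℝ) : ℂ) * A p :=
    mul_left_cancel₀ d0 (by linear_combination (k2 - k1) / 4)
  have n : ¬ p ∣ N := fun c => by
    rw [bad0 h hp c, ofReal_zero] at k1 k3
    exact p0 (pow_eq_zero_iff two_ne_zero |>.1 (by linear_combination (k1 + 2 * (A p + δ) * k3) / 4))
  rw [good0 h hp n, ofReal_natCast] at k3
  exact ⟨n, by exact_mod_cast mul_left_cancel₀ p0 k3⟩

/-- **a multiplicative Euler factor** -/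
theorem mult (h : NF N G a ε) (hA : LDr A) (S0 : S ≠ 0) (e : inc S A = inc S a)
    (hL : Differentiable ℂ L) (hs : ∀ s : ℂ, 2 < s.re → L s = ∑' n : ℕ, (A n : ℂ) / (n : ℂ) ^ s)
    (hp : p.Prime) (pS : p ∣ S) (r : A p ^ 2 - A (p ^ 2) = 0) (d : A p ^ 2 = 1) :
    p ∣ N ∧ ¬ p ^ 2 ∣ N ∧ a p = A p := by
  have b : |A p| = 1 := by rw [abs_eq one_pos.le]; simpa using d
  have k := root h hA S0 e hL hs hp pS (by rw [b]; exact_mod_cast hp.one_le) (T := A p) (by
    rw [r]; exact_mod_cast (by linear_combination -d : 1 - A p * A p + 0 * A p ^ 2 = 0))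
  have k : 1 - a p * A p + (a p ^ 2 - a (p ^ 2)) * A p ^ 2 = 0 := by exact_mod_cast k
  have n : p ∣ N := by_contra fun c => by
    have := H65.nf_lt h hp c
    rw [good0 h hp c, d] at k
    have j := congrArg abs (by linarith : a p * A p = p + 1)
    rw [abs_mul, b, abs_of_pos (a := (p : ℝ) + 1) (by positivity)] at j
    linarith
  rw [bad0 h hp n] at k
  exact ⟨n, fun c => by simp [h.bad2 p hp c] at k, by linear_combination -A p * k - a p * d⟩

end Vale.Agent.P014T.Lh
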