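import Mathlib

/-! # P014 T: Mellin transforms along a vertical progression -/

set_option linter.all false

open Complex Filter Topology Set Asymptotics MeasureTheory
open scoped Real FourierTransform

noncomputable section

namespace Vale.Agent.P014T.Lh

variable {g T : ℂ → ℂ} {p : ℕ} {β a R s : ℂ} {C C' l : ℝ} {k : ℕ}

theorem im_mul {x : ℝ} {w : ℂ} : ((x : ℂ) * w).im = x * w.im := by simp

/-- an eigenfunction of `U` with a large eigenvalue vanishes -/
theorem rig (hp : 0 < p) (hβ : (p : ℝ) < ‖β‖) (hr : ∀ w, 0 < w.im → T w = g w + β * T (p * w))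
    (hq : ∀ w (m : ℤ), 0 < w.im → T (w + m) = T w)
    (hU : ∀ w, 0 < w.im → ∑ j : Fin p, (p : ℂ)⁻¹ * g ((w + (j : ℕ)) / p) = a * g w - R * g (p * w))
    (hb : ∀ w, 0 < w.im → 1 ≤ w.re → ‖T w‖ ≤ C / w.im) (w : ℂ) (hw : 0 < w.im) :
    g w = a * g (p * w) - R * g (p * (p * w)) := by
  have p1 : (1 : ℝ) ≤ p := by exact_mod_cast hp
  have p0 : (p : ℂ) ≠ 0 := by exact_mod_cast hp.ne'
  have i : ∀ w : ℂ, ((p : ℂ) * w).im = p * w.im := fun w => by simp
  have i0 : ∀ {w : ℂ}, 0 < w.im → 0 < ((p : ℂ) * w).im := fun h => by rw [i]; positivity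
  have b : ∀ w, 0 < w.im → ‖T w‖ ≤ |C| / w.im := fun w h => by
    have := hb (w + (⌈1 - w.re⌉ : ℤ)) (by simpa using h) (by
      have := Int.le_ceil (1 - w.re); simp; linarith)
    rw [hq w _ h] at this
    exact this.trans (by simp only [add_im, intCast_im, add_zero]; gcongr; exact le_abs_self _)
  have b' : ∀ w, 0 < w.im → ‖T (p * w)‖ ≤ |C| / w.im ∧ ‖T (p * (p * w))‖ ≤ |C| / w.im :=
    fun w h => ⟨(b _ (i0 h)).trans (by rw [i]; gcongr; nlinarith),
      (b _ (i0 (i0 h))).trans (by rw [i, i]; gcongr; nlinarith [mul_le_mul p1 p1 one_pos.le (by positivity)])⟩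
  set H := fun w => T w - a * T (p * w) + R * T (p * (p * w)) with hH
  have e : ∀ w : ℂ, 0 < w.im → β * H w = ∑ j : Fin p, (p : ℂ)⁻¹ * H ((w + (j : ℕ)) / p) := fun w h => by
    have : ∀ j : Fin p, H ((w + (j : ℕ)) / p) =
        g ((w + (j : ℕ)) / p) + (β * T w - a * T w + R * T (p * w)) := fun j => by
      have k1 := hq w (j : ℕ) h
      have k2 := hq (p * w) (p * (j : ℕ)) (i0 h)
      push_cast at k1 k2
      simp only [hH]
      rw [hr _ (by simp; positivity), mul_div_cancel₀ _ p0, mul_add, k1, k2]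
      ring
    simp only [this]
    simp only [mul_add (p : ℂ)⁻¹ (g _), Finset.sum_add_distrib, hU w h, Finset.sum_const,
      Finset.card_univ, Fintype.card_fin, nsmul_eq_mul, mul_inv_cancel_left₀ p0, hH]
    linear_combination a * hr w h - R * hr _ (i0 h)
  have b0 : 0 < ‖β‖ := by linarith
  have n : ∀ J : ℕ, ∀ w : ℂ, 0 < w.im →
      ‖H w‖ ≤ (1 + ‖a‖ + ‖R‖) * |C| / w.im * (p / ‖β‖) ^ J := fun J => by
    induction J with
    | zero =>
      intro w h
      have := norm_add_le (T w - a * T (p * w)) (R * T (p * (p * w)))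
      have := norm_sub_le (T w) (a * T (p * w))
      rw [norm_mul] at *
      have := mul_le_mul_of_nonneg_left (b' w h).1 (norm_nonneg a)
      have := mul_le_mul_of_nonneg_left (b' w h).2 (norm_nonneg R)
      have := b w h
      rw [pow_zero, mul_one, mul_div_assoc]
      simp only [hH]
      linarith
    | succ J ih =>
      intro w h
      have := (congrArg norm (e w h)).trans_le (norm_sum_le_of_le _ fun j _ =>
        show _ ≤ (p : ℝ)⁻¹ * ((1 + ‖a‖ + ‖R‖) * |C| / (w.im / p) * (p / ‖β‖) ^ J) by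
          have := ih ((w + (j : ℕ)) / p) (by simp; positivity)
          rw [norm_mul, norm_inv, Complex.norm_natCast]
          gcongr
          simpa using this)
      rw [norm_mul, ← le_div_iff₀' b0] at this
      refine this.trans_eq ?_
      simp only [Finset.sum_const, Finset.card_univ, Fintype.card_fin, nsmul_eq_mul, pow_succ]
      field_simp
  have z : ∀ w : ℂ, 0 < w.im → H w = 0 := fun w h => norm_le_zero_iff.1 (ge_of_tendsto'
    (by simpa using (tendsto_pow_atTop_nhds_zero_of_lt_one (by positivity)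
      ((div_lt_one b0).2 hβ)).const_mul ((1 + ‖a‖ + ‖R‖) * |C| / w.im)) fun J => n J w h)
  have z1 := z w hw
  have z2 := z _ (i0 hw)
  simp only [hH] at z1 z2
  linear_combination z1 - β * z2 - hr w hw + a * hr _ (i0 hw) - R * hr _ (i0 (i0 hw))

/-- the terms of the periodization -/
def tm (g : ℂ → ℂ) (l : ℝ) (s : ℂ) (x : ℝ) (w : ℂ) : ℂ := exp (x * l * s) * g (Real.exp (x * l) * w)

theorem tm_le (hb : ∀ w, 0 < w.im → ‖g w‖ ≤ C / w.im ^ k) (x : ℝ) {w : ℂ} (hw : 0 < w.im) :
    ‖tm g l s x w‖ ≤ C / w.im ^ k * Real.exp (x * l * (s.re - k)) := by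
  rw [tm, norm_mul, norm_exp]
  refine (mul_le_mul_of_nonneg_left (hb _ (by rw [im_mul]; positivity)) (by positivity)).trans_eq ?_
  rw [im_mul, mul_pow, ← Real.exp_nat_mul, mul_sub, Real.exp_sub, mul_comm (k : ℝ)]
  simp only [← ofReal_mul, re_ofReal_mul]
  field_simp

theorem tm_abs (hl : 0 < l) (h1 : ∀ w, 0 < w.im → ‖g w‖ ≤ C / w.im ^ 1)
    (hk : ∀ w, 0 < w.im → ‖g w‖ ≤ C' / w.im ^ k) (k0 : 2 * s.re - 1 ≤ k) {δ : ℝ} (hδ : 0 < δ) (x : ℝ)
    {w : ℂ} (hw : δ ≤ w.im) :
    ‖tm g l s x w‖ ≤ (|C| / δ + |C'| / δ ^ k) * Real.exp (-(l * (s.re - 1)) * |x|) := by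
  have w0 := hδ.trans_le hw
  rcases le_total x 0 with h | h
  · refine (tm_le h1 x w0).trans (mul_le_mul ?_ (by rw [abs_of_nonpos h]; push_cast; ring_nf; rfl)
      (by positivity) (by positivity))
    refine le_add_of_le_of_nonneg ?_ (by positivity)
    rw [pow_one]
    gcongr
    exact le_abs_self _
  · refine (tm_le hk x w0).trans (mul_le_mul ?_ (Real.exp_le_exp.2 ?_) (by positivity) (by positivity))
    · refine le_add_of_nonneg_of_le (by positivity) ?_
      gcongr
      exact le_abs_self _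
    · rw [abs_of_nonneg h]
      nlinarith [mul_nonneg (mul_nonneg h hl.le) (sub_nonneg.2 k0)]

theorem exp_big {c : ℝ} (hc : 0 < c) :
    (fun x : ℝ => Real.exp (-c * |x|)) =O[cocompact ℝ] fun x => |x| ^ (-(2 : ℝ)) :=
  (isLittleO_exp_neg_mul_rpow_atTop hc (-2)).isBigO.comp_tendsto tendsto_norm_cocompact_atTop

theorem exp_sum {c : ℝ} (hc : 0 < c) : Summable fun n : ℤ => Real.exp (-c * |(n : ℝ)|) :=
  summable_of_isBigO (Real.summable_abs_int_rpow one_lt_two)
    ((exp_big hc).comp_tendsto Int.tendsto_coe_cofinite)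

theorem four (hl : 0 < l) {t : ℝ} (ht : 0 < t) (n : ℤ) : 𝓕 (fun x => tm g l s x (I * t)) n =
    l⁻¹ * (t ^ (-(s - 2 * π * I * n / l)) * mellin (fun y => g (I * y)) (s - 2 * π * I * n / l)) := by
  have l0 : (l : ℂ) ≠ 0 := by exact_mod_cast hl.ne'
  have e := mellin_eq_fourier (s := 2 * π * I * n)
    fun y : ℝ => (y : ℂ) ^ (-l * s) • (fun y : ℝ => g (I * ((y ^ (-l) * t : ℝ) : ℂ))) y
  rw [mellin_cpow_smul, mellin_comp_rpow (fun y : ℝ => g (I * ((y * t : ℝ) : ℂ))),
    mellin_comp_mul_right (fun y : ℝ => g (I * y)) _ ht, abs_neg, abs_of_pos hl,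
    show (2 * π * I * n + -l * s) / ((-l : ℝ) : ℂ) = s - 2 * π * I * n / l by
      push_cast; field_simp; ring,
    show (2 * π * I * n : ℂ).im / (2 * π) = n by simp, real_smul, smul_eq_mul] at e
  refine (congrArg (fun f : ℝ → ℂ => 𝓕 f (n : ℝ)) (funext fun x => ?_)).trans e.symm
  beta_reduce
  rw [tm, ← Real.exp_mul, cpow_def_of_ne_zero (by simp), ← ofReal_log (Real.exp_pos _).le, Real.log_exp,
    show (2 * π * I * n : ℂ).re = 0 by simp]
  simp only [neg_zero, zero_mul, Real.exp_zero, one_smul, smul_eq_mul, neg_mul_neg]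
  push_cast
  ring_nf

theorem up_o (δ : ℝ) : IsOpen {w : ℂ | δ < w.im} := isOpen_lt continuous_const continuous_im

theorem tm_diff (hd : DifferentiableOn ℂ g {w | 0 < w.im}) (x : ℝ) :
    DifferentiableOn ℂ (tm g l s x) {w | 0 < w.im} :=
  (hd.comp (differentiableOn_id.const_mul _) fun (w : ℂ) (k : 0 < w.im) =>
    show 0 < (((_ : ℝ) : ℂ) * w).im by rw [im_mul]; positivity).const_mul _

/-- Poisson summation, continued to the half plane -/
theorem poi (hl : 0 < l) (hs : 1 < s.re) (hd : DifferentiableOn ℂ g {w | 0 < w.im})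
    (h1 : ∀ w, 0 < w.im → ‖g w‖ ≤ C / w.im ^ 1) (hk : ∀ w, 0 < w.im → ‖g w‖ ≤ C' / w.im ^ k)
    (k0 : 2 * s.re - 1 ≤ k) {F : Finset ℤ}
    (hF : ∀ n ∉ F, mellin (fun y => g (I * y)) (s - 2 * π * I * n / l) = 0) (w : ℂ) (hw : 0 < w.im) :
    ∑' n : ℤ, tm g l s n w = ∑ n ∈ F, l⁻¹ * ((-I * w) ^ (-(s - 2 * π * I * n / l)) *
      mellin (fun y => g (I * y)) (s - 2 * π * I * n / l)) := by
  have c : 0 < l * (s.re - 1) := mul_pos hl (by linarith)
  have a1 : AnalyticOnNhd ℂ (fun w => ∑' n : ℤ, tm g l s n w) {w | 0 < w.im} := fun w (k : 0 < w.im) =>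
    (differentiableOn_tsum_of_summable_norm ((exp_sum c).mul_left _)
      (fun n => (tm_diff hd n).mono fun z (j : w.im / 2 < z.im) => (half_pos k).trans j) (up_o _)
      fun n z (j : w.im / 2 < z.im) => tm_abs hl h1 hk k0 (half_pos k) n j.le).analyticAt
        ((up_o _).mem_nhds (half_lt_self k))
  have a2 : AnalyticOnNhd ℂ (fun w => ∑ n ∈ F, l⁻¹ * ((-I * w) ^ (-(s - 2 * π * I * n / l)) *
      mellin (fun y => g (I * y)) (s - 2 * π * I * n / l))) {w | 0 < w.im} :=
    DifferentiableOn.analyticOnNhd (DifferentiableOn.fun_sum fun n _ => (((differentiableOn_id.const_mul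
      _).cpow_const fun z (j : 0 < z.im) => .inl (by simpa using j)).mul_const _).const_mul _) (up_o 0)
  refine a1.eqOn_of_preconnected_of_frequently_eq a2 (convex_halfSpace_im_gt 0).isPreconnected
    (z₀ := I) (by simp) ?_ hw
  have t : Tendsto (fun x : ℝ => I * x) (𝓝[>] 1) (𝓝[≠] I) :=
    tendsto_nhdsWithin_iff.2 ⟨((by fun_prop : Continuous fun x : ℝ => I * x).tendsto' 1 I
      (by simp)).mono_left nhdsWithin_le_nhds, eventually_mem_nhdsWithin.mono
        fun x (k : 1 < x) (e : I * x = I) => k.ne' (by simpa using congrArg im e)⟩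
  refine t.frequently (Eventually.frequently (eventually_mem_nhdsWithin.mono fun t (j : 1 < t) => ?_))
  have t0 : 0 < t := by linarith
  have z : ∀ n ∉ F, 𝓕 (fun x => tm g l s x (I * t)) (n : ℤ) = 0 := fun n m => by
    rw [four hl t0, hF n m, mul_zero, mul_zero]
  have := Real.tsum_eq_tsum_fourier_of_rpow_decay_of_summable (f := fun x => tm g l s x (I * t))
    (Continuous.mul (by fun_prop) (hd.continuousOn.comp_continuous (by fun_prop) fun x =>
      show 0 < (((_ : ℝ) : ℂ) * (I * t)).im by rw [im_mul]; simp [Real.exp_pos, t0])) one_lt_two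
    ((IsBigO.of_bound _ (.of_forall fun x => (tm_abs hl h1 hk k0 t0 x (by simp)).trans_eq (by
      rw [Real.norm_of_nonneg (Real.exp_pos _).le]))).trans (exp_big c))
    (summable_of_ne_finset_zero z) 0
  simp only [zero_add, QuotientAddGroup.mk_zero, fourier_eval_zero, mul_one] at this
  rw [this, tsum_eq_sum z]
  refine Finset.sum_congr rfl fun n _ => ?_
  rw [four hl t0, ← mul_assoc (-I), neg_mul, I_mul_I, neg_neg, one_mul]

theorem pow_le {w : ℂ} (hw : 0 < w.im) (h : 1 ≤ w.re) (hs : 1 ≤ s.re) :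
    ‖(-I * w) ^ (-s)‖ ≤ Real.exp (π * |s.im|) / w.im := by
  have n1 : 1 ≤ ‖w‖ := h.trans (re_le_norm w)
  refine (norm_cpow_le _ _).trans ?_
  rw [norm_mul, norm_neg, norm_I, one_mul, div_eq_mul_inv, ← Real.exp_neg, mul_comm, div_eq_mul_inv]
  gcongr
  · rw [neg_im, mul_neg, neg_neg]
    exact (le_abs_self _).trans (by rw [abs_mul]; gcongr; exact abs_arg_le_pi _)
  · refine (Real.rpow_le_rpow_of_exponent_le n1 (by simpa using hs : (-s).re ≤ -1)).trans ?_
    rw [Real.rpow_neg_one]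
    gcongr
    exact im_le_norm w

/-- **a Mellin transform with finitely many non-zero values on a progression** -/
theorem nv (hp : 1 < p) (hs : 1 < s.re) (hd : DifferentiableOn ℂ g {w | 0 < w.im})
    (h1 : ∀ w, 0 < w.im → ‖g w‖ ≤ C / w.im ^ 1) (hk : ∀ w, 0 < w.im → ‖g w‖ ≤ C' / w.im ^ k)
    (k0 : 2 * s.re - 1 ≤ k) (hq : ∀ w (m : ℤ), 0 < w.im → g (w + m) = g w)
    (hU : ∀ w, 0 < w.im → ∑ j : Fin p, (p : ℂ)⁻¹ * g ((w + (j : ℕ)) / p) = a * g w - R * g (p * w))
    (hF : {n : ℤ | mellin (fun y => g (I * y)) (s - 2 * π * I * n / Real.log p) ≠ 0}.Finite)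
    (w : ℂ) (hw : 0 < w.im) : g w = a * g (p * w) - R * g (p * (p * w)) := by
  have p1 : (1 : ℝ) < p := by exact_mod_cast hp
  set l := Real.log p
  have hl : 0 < l := Real.log_pos p1
  have el : Real.exp l = p := Real.exp_log (by linarith)
  have c : 0 < l * (s.re - 1) := mul_pos hl (by linarith)
  have sm : ∀ w : ℂ, 0 < w.im → Summable fun n : ℤ => tm g l s n w := fun w h =>
    .of_norm_bounded ((exp_sum c).mul_left _) fun n => tm_abs hl h1 hk k0 h n le_rfl
  have s1 : ∀ w : ℂ, 0 < w.im → Summable fun n : ℕ => tm g l s (n : ℤ) w := fun w h =>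
    (sm w h).comp_injective Nat.cast_injective
  have j : Function.Injective fun n : ℕ => -(n + 1 : ℤ) := fun a b e => by simpa using e
  refine rig (T := fun w => ∑' n : ℕ, tm g l s (n : ℤ) w) (β := exp (l * s))
    (C := ∑ n ∈ hF.toFinset, l⁻¹ * (Real.exp (π * |(s - 2 * π * I * n / l).im|) *
      ‖mellin (fun y => g (I * y)) (s - 2 * π * I * n / l)‖) +
      |C| * ∑' n : ℕ, Real.exp (-(l * (s.re - 1)) * |((-(n + 1) : ℤ) : ℝ)|))
    (by omega) ?_ (fun w h => ?_) (fun w m h => tsum_congr fun n => ?_) hU (fun w h h' => ?_) w hw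
  · rw [norm_exp, re_ofReal_mul, ← el, Real.exp_lt_exp]
    nlinarith
  · rw [(s1 w h).tsum_eq_zero_add, ← tsum_mul_left]
    congr 1
    · simp [tm]
    · refine tsum_congr fun n => ?_
      simp only [tm, ← mul_assoc, ← exp_add]
      push_cast
      rw [add_mul, one_mul, exp_add, ← ofReal_exp l, el, ofReal_natCast]
      ring_nf
  · have := hq (Real.exp ((n : ℤ) * l) * w) (p ^ n * m) (by rw [im_mul]; positivity)
    simp only [tm]
    rw [← this, mul_add, Int.cast_natCast, Real.exp_nat_mul, el]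
    push_cast
    rfl
  · have e := poi hl hs hd h1 hk k0 (F := hF.toFinset) (fun n m => by simpa using m) w h
    rw [tsum_of_nat_of_neg_add_one (f := fun n : ℤ => tm g l s n w) (s1 w h)
      ((sm w h).comp_injective j)] at e
    rw [eq_sub_of_add_eq e, add_div, Finset.sum_div]
    refine (norm_sub_le _ _).trans (add_le_add (norm_sum_le_of_le _ fun n _ => ?_) ?_)
    · rw [norm_mul, norm_mul, norm_real, Real.norm_of_nonneg (inv_pos.2 hl).le, mul_div_assoc l⁻¹,
        mul_div_right_comm (Real.exp _)]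
      gcongr
      exact pow_le h h' (by simpa using hs.le)
    · rw [mul_div_right_comm, ← tsum_mul_left]
      refine tsum_of_norm_bounded (((exp_sum c).comp_injective j).mul_left _).hasSum fun n => ?_
      refine (tm_le h1 _ h).trans (mul_le_mul (by rw [pow_one]; gcongr; exact le_abs_self _) ?_
        (by positivity) (by positivity))
      simp only [Function.comp]
      rw [abs_of_nonpos (by exact_mod_cast (by omega))]
      push_cast
      ring_nf
      rfl

end Vale.Agent.P014T.Lh
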